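import Vale.Agent.P079.Main
import Vale.Agent.P079.Sq.Main

/-!
P079: the fixed point property for reflexive spaces whose Szlenk derivation at one radius below one
half exhausts the dual ball before stage omega squared, and for every space with an equivalent
uniformly convex norm.
-/

namespace Vale.Agent.Results.P079.OmegaSquaredSzlenk

universe u v w

/-- A reflexive Banach space has the fixed point property if, at some radius below one half, the
finite iterates of the derivation through all natural numbers have empty intersection in the dual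
ball; so has every space linearly homeomorphic to a uniformly convex Banach space. -/
theorem result :
    (∀ (X : Type u) [NormedAddCommGroup X] [NormedSpace ℝ X] [CompleteSpace X],
      Function.Surjective (NormedSpace.inclusionInDoubleDual ℝ X) →
      ∀ (δ : ℝ), δ < 1 / 2 →
      (⋂ n : ℕ, (Vale.Agent.P079.Sq.omDer δ)^[n] (Vale.Agent.P079.Asym.dualBall X)) = ∅ →
      ∀ (C : Set X) (T : X → X), C.Nonempty → IsClosed C → Convex ℝ C →
      Bornology.IsBounded C → Set.MapsTo T C C →
      (∀ p ∈ C, ∀ q ∈ C, ‖T p - T q‖ ≤ ‖p - q‖) → ∃ p ∈ C, T p = p) ∧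
    (∀ (X : Type v) [NormedAddCommGroup X] [NormedSpace ℝ X] (Y : Type w)
      [NormedAddCommGroup Y] [NormedSpace ℝ Y] [CompleteSpace Y] [UniformConvexSpace Y],
      (X ≃L[ℝ] Y) → ∀ (C : Set X) (T : X → X), C.Nonempty → IsClosed C → Convex ℝ C →
      Bornology.IsBounded C → Set.MapsTo T C C →
      (∀ p ∈ C, ∀ q ∈ C, ‖T p - T q‖ ≤ ‖p - q‖) → ∃ p ∈ C, T p = p) := by
  refine ⟨?_, ?_⟩
  · intro X _ _ _ hrefl δ hδ hempty C T hne hcl hcv hbd hT hnx
    exact _root_.Vale.Agent.P079.Sq.exists_fixedPoint hrefl hδ hempty hcl hbd hcv hne hT hnx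
  · intro X _ _ Y _ _ _ _ e C T hne hcl hcv hbd hT hnx
    exact _root_.Vale.Agent.P079.fixed_point_of_equiv e C T hne hcl hcv hbd hT hnx

end Vale.Agent.Results.P079.OmegaSquaredSzlenk
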